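import Vale.Agent.P057.R2.H279.Base

/-!
# P057: packing

Packing of the translates of a set of bounded dimension.
-/

open Finset

namespace Vale.Agent.P057.H502

open scoped Classical in
/-- A small set of points separates almost all pairs. -/
theorem exists_sep (W : Finset ℤ) (hW : W.Nonempty) (F : ℕ → Set ℤ) (T D : ℕ)
    (hDW : D ≤ W.card)
    (hD : ∀ s t : ℕ, s < t → t < T → D ≤ (W.filter fun x => x ∈ F t ∧ x ∉ F s).card) (m : ℕ) :
    ∃ S ⊆ W, S.card ≤ m ∧
      ((((range T) ×ˢ (range T)).filter fun q => q.1 < q.2 ∧ ∀ x ∈ S,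
        (x ∈ F q.1 ↔ x ∈ F q.2)).card : ℝ) ≤ (T : ℝ) ^ 2 * (1 - D / W.card) ^ m := by
  have hWc : (0 : ℝ) < W.card := by exact_mod_cast hW.card_pos
  induction m with
  | zero =>
    refine ⟨∅, by simp, by simp, ?_⟩
    have h := card_filter_le ((range T) ×ˢ (range T)) (fun q => q.1 < q.2 ∧ ∀ x ∈ (∅ : Finset ℤ),
        (x ∈ F q.1 ↔ x ∈ F q.2))
    rw [card_product, card_range] at h
    have h' : ((((range T) ×ˢ (range T)).filter fun q => q.1 < q.2 ∧ ∀ x ∈ (∅ : Finset ℤ),
        (x ∈ F q.1 ↔ x ∈ F q.2)).card : ℝ) ≤ ((T * T : ℕ) : ℝ) := by exact_mod_cast h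
    rw [pow_zero, mul_one, pow_two]
    exact_mod_cast h'
  | succ m ih =>
    obtain ⟨S, hSW, hSm, hS⟩ := ih
    set U := ((range T) ×ˢ (range T)).filter fun q => q.1 < q.2 ∧ ∀ x ∈ S,
        (x ∈ F q.1 ↔ x ∈ F q.2) with hU
    -- double counting
    have h1 : (U.card * D : ℕ) ≤ ∑ x ∈ W, (U.filter fun q => x ∈ F q.2 ∧ x ∉ F q.1).card := by
      have e : ∑ x ∈ W, (U.filter fun q => x ∈ F q.2 ∧ x ∉ F q.1).card =
          ∑ q ∈ U, (W.filter fun x => x ∈ F q.2 ∧ x ∉ F q.1).card := by
        simp only [card_filter]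
        exact sum_comm
      rw [e]
      have : ∑ _q ∈ U, D ≤ ∑ q ∈ U, (W.filter fun x => x ∈ F q.2 ∧ x ∉ F q.1).card := by
        apply sum_le_sum
        intro q hq
        rw [hU, mem_filter, mem_product, mem_range, mem_range] at hq
        exact hD q.1 q.2 hq.2.1 hq.1.2
      simpa using this
    obtain ⟨x, hxW, hx⟩ : ∃ x ∈ W, U.card * D ≤
        W.card * (U.filter fun q => x ∈ F q.2 ∧ x ∉ F q.1).card := by
      by_contra hcon
      push Not at hcon
      have h2 : ∑ x ∈ W, W.card * (U.filter fun q => x ∈ F q.2 ∧ x ∉ F q.1).card <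
          ∑ _x ∈ W, U.card * D := sum_lt_sum_of_nonempty hW hcon
      rw [← mul_sum, sum_const, smul_eq_mul] at h2
      have h3 := Nat.mul_le_mul_left W.card h1
      omega
    refine ⟨insert x S, ?_, ?_, ?_⟩
    · intro y hy
      rcases mem_insert.mp hy with rfl | hy
      · exact hxW
      · exact hSW hy
    · exact (card_insert_le _ _).trans (Nat.succ_le_succ hSm)
    · have h4 : (((range T) ×ˢ (range T)).filter fun q => q.1 < q.2 ∧ ∀ y ∈ insert x S,
          (y ∈ F q.1 ↔ y ∈ F q.2)).card + (U.filter fun q => x ∈ F q.2 ∧ x ∉ F q.1).card ≤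
          U.card := by
        rw [← card_union_of_disjoint]
        · apply card_le_card
          intro q hq
          rcases mem_union.mp hq with hq | hq
          · rw [mem_filter] at hq
            rw [hU, mem_filter]
            exact ⟨hq.1, hq.2.1, fun y hy => hq.2.2 y (mem_insert_of_mem hy)⟩
          · exact (mem_filter.mp hq).1
        · rw [disjoint_left]
          intro q hq hq'
          rw [mem_filter] at hq hq'
          have := hq.2.2 x (mem_insert_self _ _)
          tauto
      have h5 : (U.card : ℝ) * D ≤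
          W.card * ((U.filter fun q => x ∈ F q.2 ∧ x ∉ F q.1).card : ℝ) := by exact_mod_cast hx
      have h6 : ((((range T) ×ˢ (range T)).filter fun q => q.1 < q.2 ∧ ∀ y ∈ insert x S,
          (y ∈ F q.1 ↔ y ∈ F q.2)).card : ℝ) +
          ((U.filter fun q => x ∈ F q.2 ∧ x ∉ F q.1).card : ℝ) ≤ U.card := by
        exact_mod_cast h4
      have h7 : (U.card : ℝ) * (D / W.card) ≤
          ((U.filter fun q => x ∈ F q.2 ∧ x ∉ F q.1).card : ℝ) := by
        rw [mul_div_assoc', div_le_iff₀ hWc]
        linarith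
      have h8 : 0 ≤ 1 - (D : ℝ) / W.card := by
        have hDW' : (D : ℝ) ≤ W.card := by exact_mod_cast hDW
        have : (D : ℝ) / W.card ≤ 1 := by
          rw [div_le_one hWc]; exact hDW'
        linarith
      calc ((((range T) ×ˢ (range T)).filter fun q => q.1 < q.2 ∧ ∀ y ∈ insert x S,
            (y ∈ F q.1 ↔ y ∈ F q.2)).card : ℝ) ≤ U.card * (1 - D / W.card) := by linarith
        _ ≤ (T : ℝ) ^ 2 * (1 - D / W.card) ^ m * (1 - D / W.card) :=
            mul_le_mul_of_nonneg_right hS h8
        _ = _ := by rw [pow_succ]; ring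

/-- The growth function bound `∑_(i ≤ d) C(m, i) ≤ (e m / d)^d`. -/
theorem sum_choose_le (m d : ℕ) (hd : 1 ≤ d) (hdm : d ≤ m) :
    ((∑ i ∈ range (d + 1), m.choose i : ℕ) : ℝ) ≤ (Real.exp 1 * m / d) ^ d := by
  have hd0 : (0 : ℝ) < d := by exact_mod_cast hd
  have hm0 : (0 : ℝ) < m := by exact_mod_cast hd.trans hdm
  have hq : (d : ℝ) / m ≤ 1 := by
    rw [div_le_one hm0]; exact_mod_cast hdm
  have hq0 : 0 < (d : ℝ) / m := by positivity
  have h1 : ((∑ i ∈ range (d + 1), m.choose i : ℕ) : ℝ) * ((d : ℝ) / m) ^ d ≤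
      Real.exp d := by
    calc ((∑ i ∈ range (d + 1), m.choose i : ℕ) : ℝ) * ((d : ℝ) / m) ^ d
        = ∑ i ∈ range (d + 1), (m.choose i : ℝ) * ((d : ℝ) / m) ^ d := by
          push_cast
          rw [sum_mul]
      _ ≤ ∑ i ∈ range (d + 1), (m.choose i : ℝ) * ((d : ℝ) / m) ^ i := by
          apply sum_le_sum
          intro i hi
          apply mul_le_mul_of_nonneg_left _ (by positivity)
          exact pow_le_pow_of_le_one hq0.le hq (Nat.lt_succ_iff.mp (mem_range.mp hi))
      _ ≤ ∑ i ∈ range (m + 1), (m.choose i : ℝ) * ((d : ℝ) / m) ^ i := by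
          apply sum_le_sum_of_subset_of_nonneg
          · exact range_mono (by omega)
          · intro i _ _
            positivity
      _ = ((d : ℝ) / m + 1) ^ m := by
          rw [add_pow]
          apply sum_congr rfl
          intro i _
          rw [one_pow, mul_one]
          ring
      _ ≤ (Real.exp ((d : ℝ) / m)) ^ m := by
          apply pow_le_pow_left₀ (by positivity)
          exact Real.add_one_le_exp _
      _ = Real.exp d := by
          rw [← Real.exp_nat_mul]
          congr 1
          field_simp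
  have h2 : (Real.exp 1 * m / d) ^ d * ((d : ℝ) / m) ^ d = Real.exp d := by
    rw [← mul_pow]
    have : Real.exp 1 * m / d * (d / m) = Real.exp 1 := by field_simp
    rw [this, ← Real.exp_nat_mul, mul_one]
  have h3 : 0 < ((d : ℝ) / m) ^ d := by positivity
  exact le_of_mul_le_mul_right (by rw [h2]; exact h1) h3

open scoped Classical in
/-- The translates of a set of dimension at most `d` have at most `∑_(i ≤ d) C(m, i)` traces on a
set of `m` points. -/
theorem traces_le (B : Set ℤ) (d : ℕ)
    (hB : ∀ s : Finset ℤ, (∀ s' ⊆ s, ∃ t : ℤ, ∀ x ∈ s, (x + t ∈ B ↔ x ∈ s')) → s.card ≤ d)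
    (S : Finset ℤ) (T m : ℕ) (hS : S.card ≤ m)
    (hinj : ∀ s t : ℕ, s < t → t < T → ∃ x ∈ S, ¬ (x + s ∈ B ↔ x + t ∈ B)) :
    T ≤ ∑ i ∈ range (d + 1), m.choose i := by
  set G : Finset (Finset ℤ) := (range T).image fun t : ℕ => S.filter fun x => x + t ∈ B with hG
  have h1 : G.card = T := by
    rw [hG, card_image_of_injOn, card_range]
    intro s hs t ht hst
    simp only [coe_range, Set.mem_Iio] at hs ht
    by_contra hne
    have key : ∀ s t : ℕ, s < t → t < T →
        (S.filter fun x => x + (s : ℤ) ∈ B) = (S.filter fun x => x + (t : ℤ) ∈ B) → False := by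
      intro s t hst' ht' h
      obtain ⟨x, hx, hx'⟩ := hinj s t hst' ht'
      apply hx'
      have := Finset.ext_iff.mp h x
      simpa [hx] using this
    rcases lt_or_gt_of_ne hne with h | h
    · exact key s t h ht hst
    · exact key t s h hs hst.symm
  have h2 : G.shatterer ⊆ (range (d + 1)).biUnion fun i => S.powersetCard i := by
    intro s hs
    rw [mem_shatterer] at hs
    have hsS : s ⊆ S := by
      obtain ⟨g, hg, hsg⟩ := hs (Subset.refl s)
      rw [hG, mem_image] at hg
      obtain ⟨t, -, rfl⟩ := hg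
      rw [inter_eq_left] at hsg
      exact hsg.trans (filter_subset _ _)
    have hcard : s.card ≤ d := by
      apply hB
      intro s' hs'
      obtain ⟨g, hg, hsg⟩ := hs hs'
      rw [hG, mem_image] at hg
      obtain ⟨t, -, rfl⟩ := hg
      refine ⟨t, fun x hx => ?_⟩
      rw [← hsg, mem_inter, mem_filter]
      exact ⟨fun h => ⟨hx, hsS hx, h⟩, fun h => h.2.2⟩
    rw [mem_biUnion]
    exact ⟨s.card, mem_range.mpr (Nat.lt_succ_of_le hcard), mem_powersetCard.mpr ⟨hsS, rfl⟩⟩
  calc T = G.card := h1.symm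
    _ ≤ G.shatterer.card := card_le_card_shatterer _
    _ ≤ ((range (d + 1)).biUnion fun i => S.powersetCard i).card := card_le_card h2
    _ ≤ ∑ i ∈ range (d + 1), (S.powersetCard i).card := card_biUnion_le
    _ = ∑ i ∈ range (d + 1), S.card.choose i := by simp only [card_powersetCard]
    _ ≤ ∑ i ∈ range (d + 1), m.choose i := by
        apply sum_le_sum
        intro i _
        exact Nat.choose_le_choose i hS

end Vale.Agent.P057.H502
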