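import Vale.Agent.P057.R2.H502.Pack

/-!
Relative counting: a set `A` inside a set `B` which is almost invariant under a shift `u`.
-/

open Finset

namespace Vale.Agent.P057.H502

open scoped Classical in
/-- Counting pairs (starting point in `B`, index) of progressions with difference `u`. -/
theorem count_pairs (A B : Set ℤ) (hAB : A ⊆ B) (u : ℤ) (hu : 0 < u) (K r : ℕ) (M : ℤ) (N : ℕ)
    (hr : ∀ b : ℤ, ((range K).filter fun j : ℕ => b + j * u ∈ A).card ≤ r) :
    K * ((Icc (M + 1) (M + N)).filter fun a => a ∈ A).card ≤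
      r * ((Icc (M + 1 - (K - 1) * u) (M + N)).filter fun b => b ∈ B).card +
      K ^ 2 * ((Icc (M + 1 - (K - 1) * u) (M + N)).filter fun c => c ∈ B ∧ c - u ∉ B).card := by
  set AI := (Icc (M + 1) (M + N)).filter fun a => a ∈ A with hAI
  set BJ := (Icc (M + 1 - (K - 1) * u) (M + N)).filter fun b => b ∈ B with hBJ
  set DD := (Icc (M + 1 - (K - 1) * u) (M + N)).filter fun c => c ∈ B ∧ c - u ∉ B with hDD
  -- the pairs `(a, j)`
  have h1 : (AI ×ˢ range K).card = K * AI.card := by
    rw [card_product, card_range, mul_comm]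
  have hsplit : (AI ×ˢ range K).card =
      ((AI ×ˢ range K).filter fun q => q.1 - q.2 * u ∈ B).card +
      ((AI ×ˢ range K).filter fun q => ¬ (q.1 - q.2 * u ∈ B)).card := by
    rw [card_filter_add_card_filter_not]
  -- first part
  have h2 : ((AI ×ˢ range K).filter fun q => q.1 - q.2 * u ∈ B).card ≤ r * BJ.card := by
    have e : ((AI ×ˢ range K).filter fun q => q.1 - q.2 * u ∈ B).card ≤
        (BJ.sigma fun b => (range K).filter fun j : ℕ => b + j * u ∈ A).card := by
      refine card_le_card_of_injOn (fun q => ⟨q.1 - q.2 * u, q.2⟩) ?_ ?_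
      · rintro ⟨a, j⟩ hq
        simp only [coe_filter, Set.mem_ofPred_eq, mem_product, hAI, mem_filter, mem_Icc,
          mem_range] at hq
        obtain ⟨⟨⟨⟨ha1, ha2⟩, haA⟩, hj⟩, hB⟩ := hq
        simp only [coe_sigma, Set.mem_sigma_iff, mem_coe, hBJ, mem_filter, mem_Icc, mem_range]
        have hju : (j : ℤ) * u ≤ (K - 1) * u := by
          apply mul_le_mul_of_nonneg_right _ hu.le
          omega
        have hju0 : 0 ≤ (j : ℤ) * u := by positivity
        refine ⟨⟨⟨by linarith, by linarith⟩, hB⟩, hj, ?_⟩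
        simpa using haA
      · rintro ⟨a, j⟩ _ ⟨a', j'⟩ _ h
        simp only [Sigma.mk.injEq, heq_eq_eq] at h
        obtain ⟨h1, h2⟩ := h
        subst h2
        simp only [Prod.mk.injEq, and_true]
        linarith
    refine e.trans ?_
    rw [card_sigma, mul_comm]
    exact sum_le_card_nsmul _ _ _ (fun b _ => hr b)
  -- second part
  have h3 : ((AI ×ˢ range K).filter fun q => ¬ (q.1 - q.2 * u ∈ B)).card ≤
      K ^ 2 * DD.card := by
    have key : ∀ q : ℤ × ℕ, q.1 ∈ A → ¬ (q.1 - q.2 * u ∈ B) →
        ∃ i : ℕ, i < q.2 ∧ q.1 - i * u ∈ B ∧ q.1 - i * u - u ∉ B := by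
      rintro ⟨a, j⟩ ha hj
      simp only at ha hj ⊢
      induction j with
      | zero => exact absurd (hAB ha) (by simpa using hj)
      | succ j ih =>
        by_cases h : a - j * u ∈ B
        · refine ⟨j, Nat.lt_succ_self _, h, ?_⟩
          have : a - j * u - u = a - ((j + 1 : ℕ) : ℤ) * u := by push_cast; ring
          rwa [this]
        · obtain ⟨i, hi, h1, h2⟩ := ih h
          exact ⟨i, hi.trans (Nat.lt_succ_self _), h1, h2⟩
    choose! i hi1 hi2 hi3 using key
    have e : ((AI ×ˢ range K).filter fun q => ¬ (q.1 - q.2 * u ∈ B)).card ≤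
        (DD ×ˢ (range K ×ˢ range K)).card := by
      refine card_le_card_of_injOn (fun q => (q.1 - i q * u, (i q, q.2))) ?_ ?_
      · rintro ⟨a, j⟩ hq
        simp only [coe_filter, Set.mem_ofPred_eq, mem_product, hAI, mem_filter, mem_Icc,
          mem_range] at hq
        obtain ⟨⟨⟨⟨ha1, ha2⟩, haA⟩, hj⟩, hB⟩ := hq
        have g1 := hi1 (a, j) haA hB
        have g2 := hi2 (a, j) haA hB
        have g3 := hi3 (a, j) haA hB
        simp only at g1 g2 g3
        simp only [coe_product, Set.mem_prod, mem_coe, hDD, mem_filter, mem_Icc, mem_range]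
        have hju : (i (a, j) : ℤ) * u ≤ (K - 1) * u := by
          apply mul_le_mul_of_nonneg_right _ hu.le
          have := g1.trans hj
          omega
        have hju0 : 0 ≤ (i (a, j) : ℤ) * u := by positivity
        exact ⟨⟨⟨by linarith, by linarith⟩, g2, g3⟩, g1.trans hj, hj⟩
      · rintro q hq q' hq' h
        simp only [Prod.mk.injEq] at h
        obtain ⟨h1, h2, h3⟩ := h
        rw [h2] at h1
        exact Prod.ext (by linarith) h3
    refine e.trans ?_
    rw [card_product, card_product, card_range]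
    apply le_of_eq
    ring
  calc K * AI.card = _ := h1.symm
    _ = _ := hsplit
    _ ≤ _ := Nat.add_le_add h2 h3

end Vale.Agent.P057.H502
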