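import Vale.Agent.P057.R2.H502.RelSum

/-!
# P057: subsets of sets of low complexity, sums of reciprocals
-/

open Finset

namespace Vale.Agent.P057.H502

open Vale.Agent.P057.H279

section
open Classical

lemma rcp_nonneg (A : Set ℕ) (n : ℕ) : 0 ≤ rcp A n := by
  unfold rcp; split_ifs <;> positivity

lemma rcp_eq (A : Set ℕ) (n : ℕ) :
    rcp A n = A.indicator (fun n : ℕ => 1 / (n : ℝ)) n := by
  unfold rcp
  by_cases hn : n ∈ A
  · rw [Set.indicator_of_mem hn, if_pos hn]
  · rw [Set.indicator_of_notMem hn, if_neg hn]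

/-- **Relative inequality for sums of reciprocals.** Let `B` be a set of positive integers which
agrees on `[1, 2 ^ (j + 1)]` with a set of dimension at most `D j`, for all large `j`, where
`∑ (j / D j) 2 ^ (- j / D j)` converges. For every subset `A` of `B` without `k`-term progressions
and every `K ≥ 1`, `K ∑_(a ∈ A, a ≤ X) 1 / a ≤ 3 r_k(K) ∑_(b ∈ B, b ≤ 2 X) 1 / b + C`. -/
theorem rel_sum (A B : Set ℕ) (hAB : A ⊆ B) (D : ℕ → ℕ) (j0 : ℕ)
    (hD : ∀ j : ℕ, j0 ≤ j → 1 ≤ D j ∧ 2 * D j ≤ j ∧ ∃ B' : Set ℤ, VCLe B' (D j) ∧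
      ∀ n : ℕ, 1 ≤ n → n ≤ 2 ^ (j + 1) → ((n : ℤ) ∈ B' ↔ n ∈ B))
    (hs : Summable (fun j : ℕ => ((j : ℝ) / D j) * (2 : ℝ) ^ (-((j : ℝ) / D j))))
    (k K : ℕ) (hK : 1 ≤ K) (hA : ¬ HasAPNat A k) :
    ∃ C : ℝ, ∀ X : ℕ,
      (K : ℝ) * ∑ n ∈ Icc 1 X, A.indicator (fun n : ℕ => 1 / (n : ℝ)) n ≤
        3 * rk k K * ∑ n ∈ Icc 1 (2 * X), B.indicator (fun n : ℕ => 1 / (n : ℝ)) n + C := by
  simp_rw [← rcp_eq]
  set a : ℕ → ℝ := fun j => ∑ n ∈ Ico (2 ^ j) (2 ^ (j + 1)), rcp A n with ha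
  set b : ℕ → ℝ := fun j => ∑ n ∈ Ico (2 ^ j) (2 ^ (j + 1)), rcp B n with hb
  set x : ℕ → ℝ := fun j => ((j : ℝ) / D j) * (2 : ℝ) ^ (-((j : ℝ) / D j)) with hx
  have ha0 : ∀ j, 0 ≤ a j := fun j => sum_nonneg fun n _ => rcp_nonneg A n
  have hb0 : ∀ j, 0 ≤ b j := fun j => sum_nonneg fun n _ => rcp_nonneg B n
  have hx0 : ∀ j, 0 ≤ x j := fun j => by rw [hx]; positivity
  have hr0 : (0 : ℝ) ≤ rk k K := Nat.cast_nonneg _
  set bp : ℕ → ℝ := fun j => if j = 0 then 0 else b (j - 1) with hbp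
  have hbp0 : ∀ j, 0 ≤ bp j := by
    intro j
    rw [hbp]
    beta_reduce
    split_ifs
    · exact le_refl _
    · exact hb0 _
  have hblk : ∀ j, j0 ≤ j → (K : ℝ) * a j ≤ rk k K * (bp j + 2 * b j) + 68 * K ^ 3 * x j := by
    intro j hj
    obtain ⟨h1, h2, B', hB', hBB⟩ := hD j hj
    have h := block A B hAB k K j (D j) hK h1 h2 B' hB' hBB hA
    have hj0 : j ≠ 0 := by omega
    have e : bp j = ∑ n ∈ Ico (2 ^ (j - 1)) (2 ^ j), rcp B n := by
      rw [hbp]
      beta_reduce
      rw [if_neg hj0, hb]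
      beta_reduce
      rw [show j - 1 + 1 = j by omega]
    rw [e]
    exact h
  have hsum_bp : ∀ J : ℕ, ∑ j ∈ range J, bp j ≤ ∑ j ∈ range J, b j := by
    intro J
    cases J with
    | zero => simp
    | succ J =>
      rw [sum_range_succ' bp J]
      have e : ∀ j, bp (j + 1) = b j := by
        intro j
        rw [hbp]
        simp
      have e0 : bp 0 = 0 := by rw [hbp]; simp
      simp_rw [e]
      rw [e0, add_zero, sum_range_succ]
      linarith [hb0 J]
  have hall : ∀ J : ℕ, (K : ℝ) * ∑ j ∈ range J, a j ≤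
      K * ∑ j ∈ range j0, a j + 3 * rk k K * ∑ j ∈ range J, b j + 68 * K ^ 3 * ∑' j, x j := by
    intro J
    have h1 : ∀ j ∈ range J, (K : ℝ) * a j ≤
        (if j < j0 then (K : ℝ) * a j else 0) + rk k K * (bp j + 2 * b j) + 68 * K ^ 3 * x j := by
      intro j _
      split_ifs with h
      · have g1 : 0 ≤ rk k K * (bp j + 2 * b j) :=
          mul_nonneg hr0 (by linarith [hbp0 j, hb0 j])
        have g2 : 0 ≤ 68 * (K : ℝ) ^ 3 * x j := mul_nonneg (by positivity) (hx0 j)
        linarith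
      · have := hblk j (not_lt.mp h)
        linarith
    have h2 : ∑ j ∈ range J, (if j < j0 then (K : ℝ) * a j else 0) ≤
        K * ∑ j ∈ range j0, a j := by
      rw [← sum_filter, mul_sum]
      apply sum_le_sum_of_subset_of_nonneg
      · intro j hj
        rw [mem_filter] at hj
        exact mem_range.mpr hj.2
      · intro j _ _
        exact mul_nonneg (Nat.cast_nonneg _) (ha0 j)
    have h3 : ∑ j ∈ range J, x j ≤ ∑' j, x j := hs.sum_le_tsum _ (fun j _ => hx0 j)
    calc (K : ℝ) * ∑ j ∈ range J, a j = ∑ j ∈ range J, (K : ℝ) * a j := mul_sum _ _ _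
      _ ≤ ∑ j ∈ range J, ((if j < j0 then (K : ℝ) * a j else 0) + rk k K * (bp j + 2 * b j) +
          68 * K ^ 3 * x j) := sum_le_sum h1
      _ = ∑ j ∈ range J, (if j < j0 then (K : ℝ) * a j else 0) +
          rk k K * (∑ j ∈ range J, bp j + 2 * ∑ j ∈ range J, b j) +
          68 * K ^ 3 * ∑ j ∈ range J, x j := by
          rw [sum_add_distrib, sum_add_distrib, ← mul_sum, ← mul_sum, sum_add_distrib, ← mul_sum]
      _ ≤ K * ∑ j ∈ range j0, a j +
          rk k K * (∑ j ∈ range J, b j + 2 * ∑ j ∈ range J, b j) +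
          68 * K ^ 3 * ∑' j, x j := by
          have := hsum_bp J
          gcongr
      _ = _ := by ring
  refine ⟨K * ∑ j ∈ range j0, a j + 68 * K ^ 3 * ∑' j, x j, fun X => ?_⟩
  rcases Nat.eq_zero_or_pos X with hX | hX
  · subst hX
    have : (0 : ℝ) ≤ K * ∑ j ∈ range j0, a j + 68 * K ^ 3 * ∑' j, x j := by
      have g1 : 0 ≤ ∑ j ∈ range j0, a j := sum_nonneg fun j _ => ha0 j
      have g2 : 0 ≤ ∑' j, x j := tsum_nonneg hx0
      positivity
    simpa using this
  · set J := Nat.log 2 X + 1 with hJ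
    have hX1 : X < 2 ^ J := Nat.lt_pow_succ_log_self (by norm_num) X
    have hX2 : 2 ^ J ≤ 2 * X := by
      rw [hJ, pow_succ, mul_comm]
      exact Nat.mul_le_mul_left 2 (Nat.pow_log_le_self 2 hX.ne')
    have hzero : ∀ A : Set ℕ, rcp A 0 = 0 := by
      intro A
      unfold rcp
      simp
    have eA : ∑ j ∈ range J, a j = ∑ n ∈ range (2 ^ J), rcp A n := by
      rw [sum_two_pow, hzero, zero_add]
    have eB : ∑ j ∈ range J, b j = ∑ n ∈ range (2 ^ J), rcp B n := by
      rw [sum_two_pow, hzero, zero_add]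
    have lA : ∑ n ∈ Icc 1 X, rcp A n ≤ ∑ j ∈ range J, a j := by
      rw [eA]
      apply sum_le_sum_of_subset_of_nonneg
      · intro n hn
        rw [mem_Icc] at hn
        rw [mem_range]
        omega
      · intro n _ _
        exact rcp_nonneg A n
    have lB : ∑ j ∈ range J, b j ≤ ∑ n ∈ Icc 1 (2 * X), rcp B n := by
      rw [eB]
      have hpos : 0 < 2 ^ J := by positivity
      obtain ⟨P, hP⟩ : ∃ P, 2 ^ J = P + 1 := ⟨2 ^ J - 1, by omega⟩
      rw [hP, sum_range_succ', hzero, add_zero]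
      calc ∑ i ∈ range P, rcp B (i + 1) = ∑ n ∈ (range P).image (fun i => i + 1), rcp B n := by
            rw [sum_image]
            intro i _ i' _ h
            exact Nat.succ_injective h
        _ ≤ _ := by
            apply sum_le_sum_of_subset_of_nonneg
            · intro n hn
              rw [mem_image] at hn
              obtain ⟨i, hi, rfl⟩ := hn
              rw [mem_range] at hi
              rw [mem_Icc]
              omega
            · intro n _ _
              exact rcp_nonneg B n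
    have h := hall J
    have g1 : (K : ℝ) * ∑ n ∈ Icc 1 X, rcp A n ≤ K * ∑ j ∈ range J, a j :=
      mul_le_mul_of_nonneg_left lA (Nat.cast_nonneg _)
    have g2 : 3 * (rk k K : ℝ) * ∑ j ∈ range J, b j ≤
        3 * rk k K * ∑ n ∈ Icc 1 (2 * X), rcp B n :=
      mul_le_mul_of_nonneg_left lB (by positivity)
    linarith

end

end Vale.Agent.P057.H502
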