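import Vale.Agent.P057.R2.H502.Shift
import Vale.Agent.P057.R2.H279.Fin

/-!
# P057: a relative inequality for subsets of sets of bounded dimension
-/

open Finset

namespace Vale.Agent.P057.H502

open Vale.Agent.P057.H279

open scoped Classical in
/-- `r_k(K)`: the largest size of a subset of `{1, ..., K}` without arithmetic progressions of `k`
terms -/
noncomputable def rk (k K : ℕ) : ℕ :=
  ((Icc 1 K).powerset.filter fun S : Finset ℕ => ¬ HasAPNat (S : Set ℕ) k).sup card

open scoped Classical in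
/-- a set without `k`-term progressions meets a `K`-term progression in at most `r_k(K)` points -/
theorem card_le_rk (k K : ℕ) (A : Set ℤ) (hA : ¬ HasAP A k) (u : ℤ) (hu : 0 < u) (b : ℤ) :
    ((range K).filter fun j : ℕ => b + j * u ∈ A).card ≤ rk k K := by
  set S := ((range K).filter fun j : ℕ => b + j * u ∈ A).image fun j => j + 1 with hS
  have h1 : S.card = ((range K).filter fun j : ℕ => b + j * u ∈ A).card :=
    card_image_of_injective _ (add_left_injective 1)
  rw [← h1]
  have hmem : S ∈ (Icc 1 K).powerset.filter fun S : Finset ℕ => ¬ HasAPNat (S : Set ℕ) k := by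
    rw [mem_filter, mem_powerset]
    constructor
    · intro x hx
      rw [hS, mem_image] at hx
      obtain ⟨j, hj, rfl⟩ := hx
      rw [mem_filter, mem_range] at hj
      rw [mem_Icc]
      omega
    · rintro ⟨a, d, hd, h⟩
      apply hA
      refine ⟨b + (a - 1) * u, d * u, by positivity, fun i hi => ?_⟩
      have := h i hi
      rw [mem_coe, hS, mem_image] at this
      obtain ⟨j, hj, hj'⟩ := this
      rw [mem_filter] at hj
      have e : b + ((a : ℤ) - 1) * u + i * (d * u) = b + j * u := by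
        have : (j : ℤ) + 1 = a + i * d := by exact_mod_cast hj'
        have : (j : ℤ) = a + i * d - 1 := by linarith
        rw [this]; ring
      rw [e]
      exact hj.2
  exact le_sup (f := card) hmem

theorem rk_le (k K : ℕ) : rk k K ≤ K := by
  classical
  unfold rk
  apply Finset.sup_le
  intro S hS
  rw [mem_filter, mem_powerset] at hS
  have := card_le_card hS.1
  simpa using this

open scoped Classical in
/-- relative inequality with a free parameter `T` -/
theorem rel_T (k K N d T : ℕ) (hK : 1 ≤ K) (hd : 1 ≤ d) (hdN : (d : ℝ) ≤ Real.log N)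
    (hT : 2 ≤ T) (hKT : K * T ≤ N) (A B : Set ℤ) (hAB : A ⊆ B) (hB : VCLe B d)
    (hA : ¬ HasAP A k) (M : ℤ) :
    (K : ℝ) * (((Icc (M + 1) (M + N)).filter fun a => a ∈ A).card : ℝ) ≤
      rk k K * (((Icc (M + 1 - K * T) (M + N)).filter fun b => b ∈ B).card : ℝ) +
      K ^ 2 * (17 * (Real.log N / d) * N * (T : ℝ) ^ (-(1 / (d : ℝ)))) := by
  have hTN : T ≤ N := (Nat.le_mul_of_pos_left T hK).trans hKT
  set W := Icc (M + 1 - K * T) (M + N) with hW
  have hWc : W.card ≤ 2 * N := by
    rw [hW, Int.card_Icc]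
    have : (K : ℤ) * T ≤ N := by exact_mod_cast hKT
    omega
  obtain ⟨s, t, hst, ht, hu⟩ := exists_shift B d N T hd hdN hT hTN hB W hWc
  obtain ⟨u, hudef⟩ : ∃ u : ℤ, u = (t : ℤ) - s := ⟨_, rfl⟩
  have hu0 : 0 < u := by omega
  have hcount := count_pairs A B hAB u hu0 K (rk k K) M N
    (fun b => card_le_rk k K A hA _ hu0 b)
  have hK1 : (1 : ℤ) ≤ K := by exact_mod_cast hK
  have hwin : (K - 1) * u + t ≤ (K : ℤ) * T := by
    have h1 : ((K : ℤ) - 1) * u ≤ (K - 1) * T := by
      apply mul_le_mul_of_nonneg_left _ (by omega)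
      omega
    have h2 : (K : ℤ) * T = (K - 1) * T + T := by ring
    omega
  obtain ⟨L, hL⟩ : ∃ L : ℤ, L = (K - 1) * u := ⟨_, rfl⟩
  rw [← hL] at hcount hwin
  have h1 : ((Icc (M + 1 - L) (M + N)).filter fun b => b ∈ B).card ≤
      ((Icc (M + 1 - K * T) (M + N)).filter fun b => b ∈ B).card := by
    apply card_le_card
    apply filter_subset_filter
    apply Icc_subset_Icc _ le_rfl
    omega
  have h2 : ((Icc (M + 1 - L) (M + N)).filter fun c => c ∈ B ∧ c - u ∉ B).card ≤
      (W.filter fun x => x + (t : ℤ) ∈ B ∧ x + (s : ℤ) ∉ B).card := by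
    apply card_le_card_of_injOn (fun c : ℤ => c - (t : ℤ))
    · intro c hc
      rw [mem_coe, mem_filter, mem_Icc] at hc
      rw [mem_coe, mem_filter, hW, mem_Icc]
      beta_reduce
      refine ⟨⟨by omega, by omega⟩, by simpa using hc.2.1, ?_⟩
      have : c - (t : ℤ) + s = c - u := by rw [hudef]; ring
      rw [this]
      exact hc.2.2
    · intro a _ b _ h
      simpa using h
  have h3 : (K : ℝ) * (((Icc (M + 1) (M + N)).filter fun a => a ∈ A).card : ℝ) ≤
      rk k K * (((Icc (M + 1 - L) (M + N)).filter fun b => b ∈ B).card : ℝ) +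
      K ^ 2 * (((Icc (M + 1 - L) (M + N)).filter fun c => c ∈ B ∧ c - u ∉ B).card : ℝ) := by
    exact_mod_cast hcount
  refine h3.trans ?_
  have h4 : (((Icc (M + 1 - L) (M + N)).filter fun c => c ∈ B ∧ c - u ∉ B).card : ℝ) ≤
        17 * (Real.log N / d) * N * (T : ℝ) ^ (-(1 / (d : ℝ))) := by
    refine le_trans ?_ hu
    exact_mod_cast h2
  have h5 : (((Icc (M + 1 - L) (M + N)).filter fun b => b ∈ B).card : ℝ) ≤
      (((Icc (M + 1 - K * T) (M + N)).filter fun b => b ∈ B).card : ℝ) := by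
    exact_mod_cast h1
  gcongr

open scoped Classical in
/-- **Relative inequality.** `A ⊆ B`, `B` of dimension at most `d`, `A` without `k`-term
progressions. -/
theorem rel (k K N d : ℕ) (hK : 1 ≤ K) (hd : 1 ≤ d) (hdN : (d : ℝ) ≤ Real.log N)
    (A B : Set ℤ) (hAB : A ⊆ B) (hB : VCLe B d) (hA : ¬ HasAP A k) (M : ℤ) :
    (K : ℝ) * (((Icc (M + 1) (M + N)).filter fun a => a ∈ A).card : ℝ) ≤
      rk k K * (((Icc (M + 1 - (N / 2 : ℕ)) (M + N)).filter fun b => b ∈ B).card : ℝ) +
      68 * K ^ 3 * (Real.log N / d) * (N : ℝ) ^ (1 - 1 / (d : ℝ)) := by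
  have hd0 : (0 : ℝ) < d := by exact_mod_cast hd
  have hd1 : (1 : ℝ) ≤ d := by exact_mod_cast hd
  have hlog1 : 1 ≤ Real.log N := hd1.trans hdN
  have hNpos : 0 < N := by
    rcases Nat.eq_zero_or_pos N with h | h
    · subst h; simp at hlog1; linarith
    · exact h
  have hN0 : (0 : ℝ) < N := by exact_mod_cast hNpos
  have hN1 : (1 : ℝ) ≤ N := by exact_mod_cast hNpos
  have hK0 : (0 : ℝ) < K := by exact_mod_cast hK
  have hK1 : (1 : ℝ) ≤ K := by exact_mod_cast hK
  have hLd : 1 ≤ Real.log N / d := by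
    rw [le_div_iff₀ hd0, one_mul]; exact hdN
  have hinv : 1 / (d : ℝ) ≤ 1 := by
    rw [div_le_one hd0]; exact hd1
  have hpw : (N : ℝ) ^ (1 - 1 / (d : ℝ)) = N * (N : ℝ) ^ (-(1 / (d : ℝ))) := by
    rw [sub_eq_add_neg, Real.rpow_add hN0, Real.rpow_one]
  rcases lt_or_ge N (4 * K) with hsmall | hbig
  · -- trivial for small `N`
    have h1 : (((Icc (M + 1) (M + N)).filter fun a => a ∈ A).card : ℝ) ≤ N := by
      have : ((Icc (M + 1) (M + N)).filter fun a => a ∈ A).card ≤ N := by
        refine (card_filter_le _ _).trans ?_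
        rw [Int.card_Icc]; omega
      exact_mod_cast this
    have h2 : (N : ℝ) ≤ 4 * K := by
      have := hsmall.le
      exact_mod_cast this
    have h3 : (1 : ℝ) ≤ (N : ℝ) ^ (1 - 1 / (d : ℝ)) :=
      Real.one_le_rpow hN1 (by linarith)
    have h4 : (K : ℝ) * (((Icc (M + 1) (M + N)).filter fun a => a ∈ A).card : ℝ) ≤
        68 * K ^ 3 * (Real.log N / d) * (N : ℝ) ^ (1 - 1 / (d : ℝ)) := by
      calc (K : ℝ) * (((Icc (M + 1) (M + N)).filter fun a => a ∈ A).card : ℝ)
          ≤ K * (4 * K) := by gcongr; exact h1.trans h2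
        _ ≤ 68 * K ^ 3 * 1 * 1 := by nlinarith [sq_nonneg (K : ℝ), mul_pos hK0 hK0]
        _ ≤ _ := by gcongr
    have h5 : (0 : ℝ) ≤ rk k K *
        (((Icc (M + 1 - (N / 2 : ℕ)) (M + N)).filter fun b => b ∈ B).card : ℝ) := by positivity
    linarith
  · set T := N / (2 * K) with hT
    have hT2 : 2 ≤ T := by
      rw [hT, Nat.le_div_iff_mul_le (by omega)]
      linarith
    have hKT : K * T ≤ N / 2 := by
      rw [hT, Nat.le_div_iff_mul_le (by norm_num)]
      have := Nat.div_mul_le_self N (2 * K)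
      calc K * (N / (2 * K)) * 2 = N / (2 * K) * (2 * K) := by ring
        _ ≤ N := this
    have hTlow : (N : ℝ) ≤ 4 * K * T := by
      have h1 : N < (T + 1) * (2 * K) := by
        rw [hT]
        exact Nat.lt_mul_of_div_lt (Nat.lt_succ_self _) (by omega)
      have h2 : (T + 1) * (2 * K) ≤ (2 * T) * (2 * K) := Nat.mul_le_mul_right _ (by omega)
      have h3 : N ≤ 4 * K * T := by
        calc N ≤ (2 * T) * (2 * K) := (h1.trans_le h2).le
          _ = 4 * K * T := by ring
      exact_mod_cast h3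
    have h := rel_T k K N d T hK hd hdN hT2 (hKT.trans (Nat.div_le_self _ _)) A B hAB hB hA M
    have hT0 : (0 : ℝ) < T := by
      have : 0 < T := by omega
      exact_mod_cast this
    have h1 : (((Icc (M + 1 - K * T) (M + N)).filter fun b => b ∈ B).card : ℝ) ≤
        (((Icc (M + 1 - (N / 2 : ℕ)) (M + N)).filter fun b => b ∈ B).card : ℝ) := by
      have : ((Icc (M + 1 - K * T) (M + N)).filter fun b => b ∈ B).card ≤
          ((Icc (M + 1 - (N / 2 : ℕ)) (M + N)).filter fun b => b ∈ B).card := by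
        apply card_le_card
        apply filter_subset_filter
        apply Icc_subset_Icc _ le_rfl
        have : (K : ℤ) * T ≤ (N / 2 : ℕ) := by exact_mod_cast hKT
        omega
      exact_mod_cast this
    have h2 : (T : ℝ) ^ (-(1 / (d : ℝ))) ≤ 4 * K * (N : ℝ) ^ (-(1 / (d : ℝ))) := by
      have g1 : (N : ℝ) ^ (1 / (d : ℝ)) ≤ (4 * K) * (T : ℝ) ^ (1 / (d : ℝ)) := by
        calc (N : ℝ) ^ (1 / (d : ℝ)) ≤ (4 * K * T) ^ (1 / (d : ℝ)) :=
              Real.rpow_le_rpow hN0.le hTlow (by positivity)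
          _ = (4 * K : ℝ) ^ (1 / (d : ℝ)) * (T : ℝ) ^ (1 / (d : ℝ)) :=
              Real.mul_rpow (by positivity) hT0.le
          _ ≤ (4 * K : ℝ) ^ (1 : ℝ) * (T : ℝ) ^ (1 / (d : ℝ)) := by
              apply mul_le_mul_of_nonneg_right _ (by positivity)
              apply Real.rpow_le_rpow_of_exponent_le _ hinv
              linarith
          _ = _ := by rw [Real.rpow_one]
      rw [Real.rpow_neg hT0.le, Real.rpow_neg hN0.le]
      have g2 : 0 < (N : ℝ) ^ (1 / (d : ℝ)) := Real.rpow_pos_of_pos hN0 _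
      have g3 : 0 < (T : ℝ) ^ (1 / (d : ℝ)) := Real.rpow_pos_of_pos hT0 _
      rw [← div_eq_mul_inv, inv_eq_one_div, div_le_div_iff₀ g3 g2]
      linarith
    refine h.trans ?_
    rw [hpw]
    have h3 : (K : ℝ) ^ 2 * (17 * (Real.log N / d) * N * (T : ℝ) ^ (-(1 / (d : ℝ)))) ≤
        (K : ℝ) ^ 2 * (17 * (Real.log N / d) * N * (4 * K * (N : ℝ) ^ (-(1 / (d : ℝ))))) := by
      gcongr
    have h4 : (K : ℝ) ^ 2 * (17 * (Real.log N / d) * N * (4 * K * (N : ℝ) ^ (-(1 / (d : ℝ))))) =
        68 * K ^ 3 * (Real.log N / d) * (N * (N : ℝ) ^ (-(1 / (d : ℝ)))) := by ring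
    have h5 : (rk k K : ℝ) *
        (((Icc (M + 1 - K * T) (M + N)).filter fun b => b ∈ B).card : ℝ) ≤
        rk k K * (((Icc (M + 1 - (N / 2 : ℕ)) (M + N)).filter fun b => b ∈ B).card : ℝ) := by
      gcongr
    linarith

end Vale.Agent.P057.H502
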