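import Vale.Agent.P057.R2.H502.RelN
import Vale.Agent.P057.R2.H279.Sum

/-!
# P057: the relative inequality for sums of reciprocals
-/

open Finset

namespace Vale.Agent.P057.H502

open Vale.Agent.P057.H279

section
open Classical

/-- the term of the sum of reciprocals over `A` -/
noncomputable def rcp (A : Set ℕ) (n : ℕ) : ℝ := if n ∈ A then 1 / (n : ℝ) else 0

/-- the points of `A` in `[a, b)` -/
noncomputable def cnt (A : Set ℕ) (a b : ℕ) : ℕ := ((Ico a b).filter fun n => n ∈ A).card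

lemma sum_rec_le (A : Set ℕ) (a b : ℕ) (ha : 0 < a) :
    ∑ n ∈ Ico a b, rcp A n ≤ cnt A a b * (1 / a) := by
  unfold cnt
  calc ∑ n ∈ Ico a b, rcp A n ≤ ∑ n ∈ Ico a b, (if n ∈ A then (1 / a : ℝ) else 0) := by
        apply sum_le_sum
        intro i hi
        rw [mem_Ico] at hi
        unfold rcp
        split_ifs
        · apply one_div_le_one_div_of_le (by exact_mod_cast ha)
          exact_mod_cast hi.1
        · exact le_refl _
    _ = _ := by rw [← sum_filter, sum_const, nsmul_eq_mul]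

lemma le_sum_rec (A : Set ℕ) (a b : ℕ) (ha : 0 < a) :
    (cnt A a b : ℝ) * (1 / b) ≤ ∑ n ∈ Ico a b, rcp A n := by
  unfold cnt
  calc (((Ico a b).filter fun n => n ∈ A).card : ℝ) * (1 / b)
      = ∑ n ∈ Ico a b, (if n ∈ A then (1 / b : ℝ) else 0) := by
        rw [← sum_filter, sum_const, nsmul_eq_mul]
    _ ≤ _ := by
        apply sum_le_sum
        intro i hi
        rw [mem_Ico] at hi
        unfold rcp
        split_ifs
        · apply one_div_le_one_div_of_le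
          · have : 0 < i := by omega
            exact_mod_cast this
          · exact_mod_cast hi.2.le
        · exact le_refl _

/-- one dyadic block -/
lemma block (A B : Set ℕ) (hAB : A ⊆ B) (k K j d : ℕ) (hK : 1 ≤ K) (hd : 1 ≤ d)
    (hdj : 2 * d ≤ j) (B' : Set ℤ) (hB' : VCLe B' d)
    (hBB : ∀ n : ℕ, 1 ≤ n → n ≤ 2 ^ (j + 1) → ((n : ℤ) ∈ B' ↔ n ∈ B)) (hA : ¬ HasAPNat A k) :
    (K : ℝ) * ∑ n ∈ Ico (2 ^ j) (2 ^ (j + 1)), rcp A n ≤
      rk k K * (∑ n ∈ Ico (2 ^ (j - 1)) (2 ^ j), rcp B n +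
        2 * ∑ n ∈ Ico (2 ^ j) (2 ^ (j + 1)), rcp B n) +
      68 * K ^ 3 * (((j : ℝ) / d) * (2 : ℝ) ^ (-((j : ℝ) / d))) := by
  have hj : 2 ≤ j := by omega
  have hd0 : (0 : ℝ) < d := by exact_mod_cast hd
  have hp1 : (1 : ℕ) ≤ 2 ^ (j - 1) := Nat.one_le_two_pow
  have hpj : 2 ^ j = 2 * 2 ^ (j - 1) := by
    rw [← pow_succ']; congr 1; omega
  have hpj1 : 2 ^ (j + 1) = 2 * 2 ^ j := by rw [pow_succ]; ring
  set A' : Set ℤ := (fun n : ℕ => (n : ℤ)) '' (A ∩ Set.Icc 1 (2 ^ (j + 1))) with hA'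
  have hA'B' : A' ⊆ B' := by
    rintro x ⟨n, ⟨hn, hn1, hn2⟩, rfl⟩
    exact (hBB n hn1 hn2).mpr (hAB hn)
  have hAP : ¬ HasAP A' k := by
    rintro ⟨a, e, he, h⟩
    apply hA
    rcases Nat.eq_zero_or_pos k with hk | hk
    · subst hk
      exact ⟨0, 1, one_pos, fun i hi => absurd hi (Nat.not_lt_zero _)⟩
    · obtain ⟨n, hn, hna⟩ := h 0 hk
      have ha : a = n := by
        have : (n : ℤ) = a + ((0 : ℕ) : ℤ) * e := hna
        simpa using this.symm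
      refine ⟨n, e.toNat, by omega, fun i hi => ?_⟩
      obtain ⟨m, hm, hma⟩ := h i hi
      have h1 : (m : ℤ) = a + (i : ℤ) * e := hma
      have h2 : n + i * e.toNat = m := by
        have h3 : ((n + i * e.toNat : ℕ) : ℤ) = m := by
          push_cast
          rw [Int.toNat_of_nonneg he.le, h1, ha]
        exact_mod_cast h3
      rw [h2]
      exact hm.1
  have hlogN : Real.log ((2 ^ j : ℕ) : ℝ) = j * Real.log 2 := by
    push_cast; rw [Real.log_pow]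
  have hlog2 : (1 : ℝ) / 2 ≤ Real.log 2 := by
    have := Real.log_two_gt_d9; linarith
  have hlog2' : Real.log 2 ≤ 1 := by
    have := Real.log_two_lt_d9; linarith
  have hdN : (d : ℝ) ≤ Real.log ((2 ^ j : ℕ) : ℝ) := by
    rw [hlogN]
    have h1 : (2 : ℝ) * d ≤ j := by exact_mod_cast hdj
    have h2 : (j : ℝ) * (1 / 2) ≤ j * Real.log 2 :=
      mul_le_mul_of_nonneg_left hlog2 (by positivity)
    linarith
  have h := rel k K (2 ^ j) d hK hd hdN A' B' hA'B' hB' hAP (2 ^ j - 1)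
  -- counts
  have hhalf : (2 ^ j : ℕ) / 2 = 2 ^ (j - 1) := by omega
  have c1 : (cnt A (2 ^ j) (2 ^ (j + 1)) : ℝ) ≤
      (((Icc ((2 : ℤ) ^ j - 1 + 1) (2 ^ j - 1 + (2 ^ j : ℕ))).filter fun a => a ∈ A').card : ℝ) := by
    have : cnt A (2 ^ j) (2 ^ (j + 1)) ≤
        ((Icc ((2 : ℤ) ^ j - 1 + 1) (2 ^ j - 1 + (2 ^ j : ℕ))).filter fun a => a ∈ A').card := by
      unfold cnt
      apply card_le_card_of_injOn (fun n : ℕ => (n : ℤ))
      · intro n hn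
        rw [mem_coe, mem_filter, mem_Ico] at hn
        rw [mem_coe, mem_filter, mem_Icc]
        beta_reduce
        have e1 : ((2 ^ j : ℕ) : ℤ) ≤ n := by exact_mod_cast hn.1.1
        have e2 : (n : ℤ) < ((2 ^ (j + 1) : ℕ) : ℤ) := by exact_mod_cast hn.1.2
        rw [hpj1] at e2
        push_cast at e1 e2 ⊢
        refine ⟨⟨by linarith, by linarith⟩, n, ⟨hn.2, ?_, hn.1.2.le⟩, rfl⟩
        have : 1 ≤ 2 ^ j := Nat.one_le_two_pow
        exact this.trans hn.1.1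
      · intro a _ b _ hab
        have h1 : (a : ℤ) = (b : ℤ) := hab
        exact_mod_cast h1
    exact_mod_cast this
  have c2 : (((Icc ((2 : ℤ) ^ j - 1 + 1 - ((2 ^ j / 2 : ℕ) : ℤ)) (2 ^ j - 1 + (2 ^ j : ℕ))).filter
      fun b => b ∈ B').card : ℝ) ≤ cnt B (2 ^ (j - 1)) (2 ^ j) + cnt B (2 ^ j) (2 ^ (j + 1)) := by
    have : ((Icc ((2 : ℤ) ^ j - 1 + 1 - ((2 ^ j / 2 : ℕ) : ℤ)) (2 ^ j - 1 + (2 ^ j : ℕ))).filter
        fun b => b ∈ B').card ≤ cnt B (2 ^ (j - 1)) (2 ^ j) + cnt B (2 ^ j) (2 ^ (j + 1)) := by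
      unfold cnt
      rw [← card_union_of_disjoint]
      · apply card_le_card_of_injOn (fun x : ℤ => x.toNat)
        · intro x hx
          rw [mem_coe, mem_filter, mem_Icc, hhalf] at hx
          obtain ⟨⟨hx1, hx2⟩, hxB⟩ := hx
          have e1 : ((2 ^ j : ℕ) : ℤ) = 2 * ((2 ^ (j - 1) : ℕ) : ℤ) := by exact_mod_cast hpj
          push_cast at e1 hx1 hx2
          have e2 : ((2 ^ (j - 1) : ℕ) : ℤ) ≤ x := by push_cast; linarith
          have e3 : x < ((2 ^ (j + 1) : ℕ) : ℤ) := by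
            rw [hpj1]; push_cast; linarith
          have hx0 : 0 ≤ x := by
            have : (0 : ℤ) ≤ ((2 ^ (j - 1) : ℕ) : ℤ) := by positivity
            linarith
          obtain ⟨n, rfl⟩ := Int.eq_ofNat_of_zero_le hx0
          have e2' : 2 ^ (j - 1) ≤ n := by exact_mod_cast e2
          have e3' : n < 2 ^ (j + 1) := by exact_mod_cast e3
          have hnB : n ∈ B := (hBB n (hp1.trans e2') e3'.le).mp hxB
          rw [mem_coe, mem_union, mem_filter, mem_filter, mem_Ico, mem_Ico]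
          beta_reduce
          rw [show ((n : ℤ)).toNat = n from Int.toNat_natCast n]
          rcases lt_or_ge n (2 ^ j) with h | h
          · exact Or.inl ⟨⟨e2', h⟩, hnB⟩
          · exact Or.inr ⟨⟨h, e3'⟩, hnB⟩
        · intro x hx y hy hxy
          rw [mem_coe, mem_filter, mem_Icc, hhalf] at hx hy
          have e1 : ((2 ^ j : ℕ) : ℤ) = 2 * ((2 ^ (j - 1) : ℕ) : ℤ) := by exact_mod_cast hpj
          push_cast at e1
          have e0 : (0 : ℤ) < 2 ^ (j - 1) := by positivity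
          have ex := hx.1.1
          have ey := hy.1.1
          push_cast at ex ey
          have hxy' : x.toNat = y.toNat := hxy
          have hx0 : 0 ≤ x := by linarith
          have hy0 : 0 ≤ y := by linarith
          omega
      · rw [disjoint_left]
        intro n hn hn'
        rw [mem_filter, mem_Ico] at hn hn'
        omega
    exact_mod_cast this
  -- the error term
  have herr : 68 * (K : ℝ) ^ 3 * (Real.log ((2 ^ j : ℕ) : ℝ) / d) *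
      ((2 ^ j : ℕ) : ℝ) ^ (1 - 1 / (d : ℝ)) * (1 / (2 ^ j : ℕ)) ≤
      68 * K ^ 3 * (((j : ℝ) / d) * (2 : ℝ) ^ (-((j : ℝ) / d))) := by
    have hp0 : (0 : ℝ) < ((2 ^ j : ℕ) : ℝ) := by positivity
    have e1 : ((2 ^ j : ℕ) : ℝ) ^ (1 - 1 / (d : ℝ)) * (1 / (2 ^ j : ℕ)) =
        (2 : ℝ) ^ (-((j : ℝ) / d)) := by
      rw [sub_eq_add_neg, Real.rpow_add hp0, Real.rpow_one]
      have e2 : ((2 ^ j : ℕ) : ℝ) ^ (-(1 / (d : ℝ))) = (2 : ℝ) ^ (-((j : ℝ) / d)) := by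
        push_cast
        rw [← Real.rpow_natCast, ← Real.rpow_mul (by norm_num)]
        congr 1
        ring
      rw [e2]
      field_simp
    rw [mul_assoc _ (((2 ^ j : ℕ) : ℝ) ^ (1 - 1 / (d : ℝ))), e1, hlogN]
    have e3 : (j : ℝ) * Real.log 2 / d ≤ (j : ℝ) / d := by
      apply div_le_div_of_nonneg_right _ hd0.le
      have := mul_le_mul_of_nonneg_left hlog2' (Nat.cast_nonneg (α := ℝ) j)
      linarith
    have e4 : (0 : ℝ) ≤ (2 : ℝ) ^ (-((j : ℝ) / d)) := by positivity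
    calc 68 * (K : ℝ) ^ 3 * ((j : ℝ) * Real.log 2 / d) * (2 : ℝ) ^ (-((j : ℝ) / d))
        ≤ 68 * (K : ℝ) ^ 3 * ((j : ℝ) / d) * (2 : ℝ) ^ (-((j : ℝ) / d)) := by gcongr
      _ = _ := by ring
  have hP : (0 : ℝ) < ((2 ^ j : ℕ) : ℝ) := by positivity
  have s1 := sum_rec_le A (2 ^ j) (2 ^ (j + 1)) (by positivity)
  have s2 := le_sum_rec B (2 ^ (j - 1)) (2 ^ j) (by positivity)
  have s3 := le_sum_rec B (2 ^ j) (2 ^ (j + 1)) (by positivity)
  have s3' : (cnt B (2 ^ j) (2 ^ (j + 1)) : ℝ) * (1 / (2 ^ j : ℕ)) ≤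
      2 * ∑ n ∈ Ico (2 ^ j) (2 ^ (j + 1)), rcp B n := by
    have e : (1 : ℝ) / ((2 ^ j : ℕ) : ℝ) = 2 * (1 / ((2 ^ (j + 1) : ℕ) : ℝ)) := by
      rw [hpj1]; push_cast; field_simp
    rw [e]
    calc (cnt B (2 ^ j) (2 ^ (j + 1)) : ℝ) * (2 * (1 / ((2 ^ (j + 1) : ℕ) : ℝ)))
        = 2 * ((cnt B (2 ^ j) (2 ^ (j + 1)) : ℝ) * (1 / ((2 ^ (j + 1) : ℕ) : ℝ))) := by ring
      _ ≤ _ := by linarith
  have hmain : (K : ℝ) * cnt A (2 ^ j) (2 ^ (j + 1)) ≤
      rk k K * (cnt B (2 ^ (j - 1)) (2 ^ j) + cnt B (2 ^ j) (2 ^ (j + 1))) +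
        68 * (K : ℝ) ^ 3 * (Real.log ((2 ^ j : ℕ) : ℝ) / d) *
          ((2 ^ j : ℕ) : ℝ) ^ (1 - 1 / (d : ℝ)) := by
    calc (K : ℝ) * cnt A (2 ^ j) (2 ^ (j + 1)) ≤ K * _ :=
          mul_le_mul_of_nonneg_left c1 (Nat.cast_nonneg _)
      _ ≤ _ := h
      _ ≤ _ := by
          have := mul_le_mul_of_nonneg_left c2 (Nat.cast_nonneg (α := ℝ) (rk k K))
          linarith
  have hq0 : (0 : ℝ) ≤ 1 / ((2 ^ j : ℕ) : ℝ) := by positivity
  calc (K : ℝ) * ∑ n ∈ Ico (2 ^ j) (2 ^ (j + 1)), rcp A n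
      ≤ K * (cnt A (2 ^ j) (2 ^ (j + 1)) * (1 / ((2 ^ j : ℕ) : ℝ))) :=
        mul_le_mul_of_nonneg_left s1 (Nat.cast_nonneg _)
    _ = (K * cnt A (2 ^ j) (2 ^ (j + 1))) * (1 / ((2 ^ j : ℕ) : ℝ)) := by ring
    _ ≤ (rk k K * (cnt B (2 ^ (j - 1)) (2 ^ j) + cnt B (2 ^ j) (2 ^ (j + 1))) +
        68 * (K : ℝ) ^ 3 * (Real.log ((2 ^ j : ℕ) : ℝ) / d) *
          ((2 ^ j : ℕ) : ℝ) ^ (1 - 1 / (d : ℝ))) * (1 / ((2 ^ j : ℕ) : ℝ)) :=
        mul_le_mul_of_nonneg_right hmain hq0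
    _ = rk k K * (cnt B (2 ^ (j - 1)) (2 ^ j) * (1 / ((2 ^ j : ℕ) : ℝ)) +
          cnt B (2 ^ j) (2 ^ (j + 1)) * (1 / ((2 ^ j : ℕ) : ℝ))) +
        68 * (K : ℝ) ^ 3 * (Real.log ((2 ^ j : ℕ) : ℝ) / d) *
          ((2 ^ j : ℕ) : ℝ) ^ (1 - 1 / (d : ℝ)) * (1 / ((2 ^ j : ℕ) : ℝ)) := by ring
    _ ≤ _ := by
        apply add_le_add _ herr
        apply mul_le_mul_of_nonneg_left _ (Nat.cast_nonneg _)
        exact add_le_add s2 s3'

end

end Vale.Agent.P057.H502
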