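import Vale.Agent.P057.R2.H502.RelFin

/-!
# P057: the two inequalities without the symbol `r_k(K)`
-/

open Finset

namespace Vale.Agent.P057.H502

open Vale.Agent.P057.H279

/-- upper bounds for `r_k(K)` -/
theorem rk_le_of (k K m : ℕ)
    (h : ∀ S : Finset ℕ, S ⊆ Icc 1 K → m < S.card → HasAPNat (S : Set ℕ) k) : rk k K ≤ m := by
  classical
  unfold rk
  apply Finset.sup_le
  intro S hS
  rw [mem_filter, mem_powerset] at hS
  by_contra hlt
  exact hS.2 (h S hS.1 (not_le.mp hlt))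

/-- there is a subset of `{1, ..., K}` without `k`-term progressions of size `r_k(K)` -/
theorem exists_rk (k K : ℕ) (hk : 1 ≤ k) :
    ∃ S : Finset ℕ, S ⊆ Icc 1 K ∧ ¬ HasAPNat (S : Set ℕ) k ∧ S.card = rk k K := by
  classical
  unfold rk
  have hne : ((Icc 1 K).powerset.filter fun S : Finset ℕ => ¬ HasAPNat (S : Set ℕ) k).Nonempty := by
    refine ⟨∅, ?_⟩
    rw [mem_filter, mem_powerset]
    refine ⟨empty_subset _, ?_⟩
    rintro ⟨a, d, -, h⟩
    have := h 0 hk
    simp at this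
  obtain ⟨S, hS, hc⟩ := exists_mem_eq_sup _ hne (card : Finset ℕ → ℕ)
  rw [mem_filter, mem_powerset] at hS
  exact ⟨S, hS.1, hS.2, hc.symm⟩

end Vale.Agent.P057.H502
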