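import Vale.Agent.P057.R2.H502.Rel
import Mathlib.Analysis.Complex.ExponentialBounds

/-!
# P057: a set of bounded dimension is almost invariant under a small shift
-/

open Finset

namespace Vale.Agent.P057.H502

open Vale.Agent.P057.H279

open scoped Classical in
theorem exists_shift (B : Set ℤ) (d N T : ℕ) (hd : 1 ≤ d) (hdN : (d : ℝ) ≤ Real.log N)
    (hT : 2 ≤ T) (hTN : T ≤ N) (hB : VCLe B d) (W : Finset ℤ) (hW : W.card ≤ 2 * N) :
    ∃ s t : ℕ, s < t ∧ t < T ∧
      ((W.filter fun x => x + (t : ℤ) ∈ B ∧ x + (s : ℤ) ∉ B).card : ℝ) ≤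
        17 * (Real.log N / d) * N * (T : ℝ) ^ (-(1 / (d : ℝ))) := by
  by_contra hcon
  push Not at hcon
  have hd0 : (0 : ℝ) < d := by exact_mod_cast hd
  have hd1 : (1 : ℝ) ≤ d := by exact_mod_cast hd
  have hlog1 : 1 ≤ Real.log N := hd1.trans hdN
  have hN0 : (0 : ℝ) < N := by
    have : 0 < N := by omega
    exact_mod_cast this
  have hT0 : (0 : ℝ) < T := by
    have : 0 < T := by omega
    exact_mod_cast this
  have hlogT : Real.log T ≤ Real.log N := by
    apply Real.log_le_log hT0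
    exact_mod_cast hTN
  have hlogT0 : 0 ≤ Real.log T := by
    apply Real.log_nonneg
    have : 1 ≤ T := by omega
    exact_mod_cast this
  set q : ℝ := (T : ℝ) ^ (-(1 / (d : ℝ))) with hq
  have hq0 : 0 < q := Real.rpow_pos_of_pos hT0 _
  set bd : ℝ := 17 * (Real.log N / d) * N * q with hbd
  have hbd0 : 0 < bd := by positivity
  set D : ℕ := ⌊bd⌋₊ + 1 with hDdef
  have hDbd : bd < D := by
    rw [hDdef]; push_cast; exact Nat.lt_floor_add_one bd
  have hD0 : (0 : ℝ) < D := hbd0.trans hDbd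
  have hDle : ∀ s t : ℕ, s < t → t < T →
      D ≤ (W.filter fun x => x ∈ {y : ℤ | y + t ∈ B} ∧ x ∉ {y : ℤ | y + s ∈ B}).card := by
    intro s t hst ht
    have h := hcon s t hst ht
    have h2 : ⌊bd⌋₊ < (W.filter fun x => x + (t : ℤ) ∈ B ∧ x + (s : ℤ) ∉ B).card := by
      rw [Nat.floor_lt hbd0.le]; exact h
    have e : (W.filter fun x => x ∈ {y : ℤ | y + (t : ℤ) ∈ B} ∧ x ∉ {y : ℤ | y + (s : ℤ) ∈ B}) =
        (W.filter fun x => x + (t : ℤ) ∈ B ∧ x + (s : ℤ) ∉ B) := by
      ext x; simp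
    rw [e]
    omega
  have hDW : D ≤ W.card :=
    (hDle 0 1 (by norm_num) (by omega)).trans (card_filter_le _ _)
  have hWne : W.Nonempty := by
    rw [← card_pos]; omega
  have hWc : (0 : ℝ) < W.card := by exact_mod_cast hWne.card_pos
  have hW2 : (W.card : ℝ) ≤ 2 * N := by exact_mod_cast hW
  set m : ℕ := ⌊2 * Real.log T * W.card / D⌋₊ + 1 with hm
  have hm1 : 2 * Real.log T * W.card / D < m := by
    rw [hm]; push_cast; exact Nat.lt_floor_add_one _
  have hm2 : (m : ℝ) ≤ 2 * Real.log T * W.card / D + 1 := by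
    rw [hm]; push_cast
    have : (⌊2 * Real.log T * W.card / D⌋₊ : ℝ) ≤ 2 * Real.log T * W.card / D :=
      Nat.floor_le (by positivity)
    linarith
  obtain ⟨S, hSW, hSm, hS⟩ := exists_sep W hWne (fun t : ℕ => {y : ℤ | y + t ∈ B}) T D hDW hDle m
  -- no unseparated pair
  have hlt : (T : ℝ) ^ 2 * (1 - D / W.card) ^ m < 1 := by
    have h1 : 0 ≤ 1 - (D : ℝ) / W.card := by
      have : (D : ℝ) / W.card ≤ 1 := by
        rw [div_le_one hWc]; exact_mod_cast hDW
      linarith
    have h2 : (1 - (D : ℝ) / W.card) ^ m ≤ Real.exp (-((D : ℝ) / W.card)) ^ m := by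
      apply pow_le_pow_left₀ h1
      have := Real.add_one_le_exp (-((D : ℝ) / W.card))
      linarith
    rw [← Real.exp_nat_mul] at h2
    have h3 : (T : ℝ) ^ 2 = Real.exp (2 * Real.log T) := by
      rw [show 2 * Real.log T = Real.log T + Real.log T by ring, Real.exp_add,
        Real.exp_log hT0, pow_two]
    have h4 : (m : ℝ) * -((D : ℝ) / W.card) < -(2 * Real.log T) := by
      have : 2 * Real.log T < m * (D / W.card) := by
        rw [div_lt_iff₀ hD0] at hm1
        rw [mul_div_assoc', lt_div_iff₀ hWc]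
        exact hm1
      linarith
    calc (T : ℝ) ^ 2 * (1 - D / W.card) ^ m
        ≤ Real.exp (2 * Real.log T) * Real.exp ((m : ℝ) * -((D : ℝ) / W.card)) := by
          rw [h3]; exact mul_le_mul_of_nonneg_left h2 (Real.exp_pos _).le
      _ < Real.exp (2 * Real.log T) * Real.exp (-(2 * Real.log T)) := by
          apply mul_lt_mul_of_pos_left _ (Real.exp_pos _)
          exact Real.exp_lt_exp.mpr h4
      _ = 1 := by rw [← Real.exp_add]; simp
  have hempty : (((range T) ×ˢ (range T)).filter fun q => q.1 < q.2 ∧ ∀ x ∈ S,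
        (x ∈ (fun t : ℕ => {y : ℤ | y + t ∈ B}) q.1 ↔
          x ∈ (fun t : ℕ => {y : ℤ | y + t ∈ B}) q.2)).card = 0 := by
    have h := hS.trans_lt hlt
    have h' : (((range T) ×ˢ (range T)).filter fun q => q.1 < q.2 ∧ ∀ x ∈ S,
        (x ∈ (fun t : ℕ => {y : ℤ | y + t ∈ B}) q.1 ↔
          x ∈ (fun t : ℕ => {y : ℤ | y + t ∈ B}) q.2)).card < 1 := by exact_mod_cast h
    omega
  have hinj : ∀ s t : ℕ, s < t → t < T → ∃ x ∈ S, ¬ (x + (s : ℤ) ∈ B ↔ x + (t : ℤ) ∈ B) := by
    intro s t hst ht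
    by_contra hno
    push Not at hno
    rw [card_eq_zero, filter_eq_empty_iff] at hempty
    apply hempty (x := (s, t)) (by
      rw [mem_product, mem_range, mem_range]; exact ⟨hst.trans ht, ht⟩)
    exact ⟨hst, fun x hx => hno x hx⟩
  have hB' : ∀ s : Finset ℤ, (∀ s' ⊆ s, ∃ t : ℤ, ∀ x ∈ s, (x + t ∈ B ↔ x ∈ s')) → s.card ≤ d := by
    intro s hs
    have := hB s hs
    exact_mod_cast this
  have hTm := traces_le B d hB' S T m hSm hinj
  have hD2N : (D : ℝ) ≤ 2 * N := by
    have : (D : ℝ) ≤ W.card := by exact_mod_cast hDW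
    linarith
  -- `q ^ d = 1 / T`
  have hqd : q ^ d = (T : ℝ)⁻¹ := by
    rw [hq, ← Real.rpow_natCast, ← Real.rpow_mul hT0.le]
    have : -(1 / (d : ℝ)) * (d : ℕ) = -1 := by field_simp
    rw [this, Real.rpow_neg_one]
  have hm3 : (m : ℝ) * D ≤ 6 * N * Real.log N := by
    have h1 : (m : ℝ) * D ≤ 2 * Real.log T * W.card + D := by
      have := mul_le_mul_of_nonneg_right hm2 hD0.le
      rw [add_mul, div_mul_cancel₀ _ hD0.ne', one_mul] at this
      exact this
    have h2 : 2 * Real.log T * W.card ≤ 2 * Real.log N * (2 * N) := by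
      apply mul_le_mul (by linarith) hW2 hWc.le (by positivity)
    have h3 : (2 : ℝ) * N * 1 ≤ 2 * N * Real.log N :=
      mul_le_mul_of_nonneg_left hlog1 (by positivity)
    nlinarith
  rcases le_or_gt d m with hdm | hdm
  · -- the main case
    have h1 : (T : ℝ) ≤ (Real.exp 1 * m / d) ^ d := by
      refine le_trans ?_ (sum_choose_le m d hd hdm)
      exact_mod_cast hTm
    have h2 : (1 : ℝ) ≤ (Real.exp 1 * m / d * q) ^ d := by
      rw [mul_pow, hqd]
      rw [← div_eq_mul_inv, le_div_iff₀ hT0, one_mul]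
      exact h1
    have h3 : 1 ≤ Real.exp 1 * m / d * q := by
      by_contra hlt1
      push Not at hlt1
      have h0 : 0 ≤ Real.exp 1 * m / d * q := by positivity
      have := pow_lt_one₀ h0 hlt1 (by omega : d ≠ 0)
      linarith
    have h4 : (d : ℝ) ≤ Real.exp 1 * m * q := by
      have : Real.exp 1 * m / d * q = Real.exp 1 * m * q / d := by ring
      rw [this, le_div_iff₀ hd0, one_mul] at h3
      exact h3
    have h5 : (d : ℝ) * D ≤ Real.exp 1 * q * (6 * N * Real.log N) := by
      calc (d : ℝ) * D ≤ Real.exp 1 * m * q * D := mul_le_mul_of_nonneg_right h4 hD0.le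
        _ = Real.exp 1 * q * (m * D) := by ring
        _ ≤ _ := mul_le_mul_of_nonneg_left hm3 (by positivity)
    have h6 : bd * d = 17 * (q * N * Real.log N) := by
      rw [hbd]; field_simp
    have h7 : Real.exp 1 * 6 ≤ 17 := by
      have := Real.exp_one_lt_d9
      linarith
    have h8 : (d : ℝ) * D ≤ bd * d := by
      rw [h6]
      calc (d : ℝ) * D ≤ Real.exp 1 * q * (6 * N * Real.log N) := h5
        _ = (Real.exp 1 * 6) * (q * N * Real.log N) := by ring
        _ ≤ 17 * (q * N * Real.log N) := mul_le_mul_of_nonneg_right h7 (by positivity)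
    have h9 : bd * d < d * D := by
      rw [mul_comm]; exact mul_lt_mul_of_pos_left hDbd hd0
    linarith
  · -- few points: the dimension is large
    have h1 : 2 * Real.log T < d := by
      have g1 : 2 * Real.log T ≤ 2 * Real.log T * W.card / D := by
        rw [le_div_iff₀ hD0]
        apply mul_le_mul_of_nonneg_left _ (by positivity)
        exact_mod_cast hDW
      have g2 : (m : ℝ) < d := by exact_mod_cast hdm
      linarith
    have h2 : 1 / 2 ≤ q := by
      rw [hq, Real.rpow_def_of_pos hT0]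
      have g1 : -(1 / 2 : ℝ) ≤ Real.log T * -(1 / (d : ℝ)) := by
        have : Real.log T * (1 / (d : ℝ)) ≤ 1 / 2 := by
          rw [mul_one_div, div_le_iff₀ hd0]; linarith
        linarith
      calc (1 / 2 : ℝ) = -(1 / 2) + 1 := by norm_num
        _ ≤ Real.exp (-(1 / 2)) := Real.add_one_le_exp _
        _ ≤ _ := Real.exp_le_exp.mpr g1
    have h3 : 1 ≤ Real.log N / d := by
      rw [le_div_iff₀ hd0, one_mul]; exact hdN
    have h4 : 17 * 1 * (N : ℝ) * (1 / 2) ≤ bd := by
      rw [hbd]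
      gcongr
    linarith

end Vale.Agent.P057.H502
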